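import Vale.Agent.P002A30.Rows
import Vale.Agent.P299G85.Exi
import Vale.Agent.P299G50.Conn

/-!
# P002G96: a smooth projective curve is a compact connected Riemann surface with small discs
-/

open Set Filter Metric Topology
open scoped Manifold ContDiff
open Vale.Agent.P272.K Vale.Agent.P300.Final
open Vale.Agent.P299G40 (PN IsSmoothVariety IsAnalytification)
open Vale.Agent.P264Z (CP)

noncomputable section

namespace Vale.Agent.P002A

section transport

variable {E X Y : Type} [NormedAddCommGroup E] [NormedSpace ℂ E] [TopologicalSpace X]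
  [TopologicalSpace Y] [ChartedSpace E X]

/-- the chart of `Y` that corresponds to the chart of `X` at `x` -/
def trChart (h : X ≃ₜ Y) (L : E ≃L[ℂ] ℂ) (x : X) : OpenPartialHomeomorph Y ℂ :=
  (h.symm.toOpenPartialHomeomorph ≫ₕ chartAt E x) ≫ₕ L.toHomeomorph.toOpenPartialHomeomorph

theorem transport [IsManifold 𝓘(ℂ, E) ω X] (h : X ≃ₜ Y) (L : E ≃L[ℂ] ℂ) :
    ∃ _ : ChartedSpace ℂ Y, IsManifold 𝓘(ℂ) 1 Y := by
  let _ : ChartedSpace ℂ Y :=
    { atlas := range (trChart h L), chartAt := fun y => trChart h L (h.symm y)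
      mem_chart_source := fun y => by simp [trChart]
      chart_mem_atlas := fun y => ⟨_, rfl⟩ }
  refine ⟨inferInstance, isManifold_of_contDiffOn 𝓘(ℂ) 1 _ ?_⟩
  rintro _ _ ⟨x, rfl⟩ ⟨x', rfl⟩ z hz
  have hz' : L.symm z ∈ (chartAt E x).target ∧
      (chartAt E x).symm (L.symm z) ∈ (chartAt E x').source := by
    simpa [trChart] using hz.1
  have h1 : ContMDiffAt 𝓘(ℂ, E) 𝓘(ℂ, E) ω (chartAt E x' ∘ (chartAt E x).symm) (L.symm z) :=
    (contMDiffOn_chart.contMDiffAt ((chartAt E x').open_source.mem_nhds hz'.2)).comp _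
      (contMDiffOn_chart_symm.contMDiffAt ((chartAt E x).open_target.mem_nhds hz'.1))
  have h2 := L.contDiff.contDiffAt.comp z
    ((contMDiffAt_iff_contDiffAt.1 h1).comp z L.symm.contDiff.contDiffAt)
  refine ((h2.of_le le_top).congr_of_eventuallyEq
    (Eventually.of_forall fun w => ?_)).contDiffWithinAt
  simp [trChart]

end transport

variable {N : ℕ} {Z : Set (PN N)}

/-- a point of `P^N` with the classical topology -/
def toCP (q : PN N) : CP N := q

theorem an_emb : IsEmbedding (fun p : An Z => toCP p.1) :=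
  ⟨⟨rfl⟩, Subtype.val_injective⟩

variable {X : Type} [TopologicalSpace X] [ChartedSpace (Cm 1) X]

theorem imm_cont {Φ : X → PN N} (hΦ : IsProjectiveImmersion (Cm 1) Φ) :
    Continuous (fun x => toCP (Φ x)) := by
  refine continuous_iff_continuousAt.2 fun x => ?_
  obtain ⟨W, s, hx, ⟨hW, hs⟩, hc, -⟩ := hΦ x
  refine ContinuousOn.continuousAt ?_ (hW.mem_nhds hx)
  rw [continuousOn_iff_continuous_domRestrict]
  have h1 : Continuous fun y : W => (⟨s y, (hc y y.2).1⟩ : CP.V0 N) :=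
    (continuousOn_iff_continuous_domRestrict.1 hs.continuousOn).subtype_mk _
  exact (CP.continuous_mk.comp h1).congr fun y => (hc y y.2).2.symm

theorem disc [IsManifold 𝓘(ℂ, Cm 1) ω X] {Φ : X → PN N} (hΦ : IsProjectiveImmersion (Cm 1) Φ)
    (h : X ≃ₜ An Z) (hh : ∀ x, (h x).1 = Φ x) (p : An Z) (O : Set (An Z)) (hO : O ∈ 𝓝 p) :
    ∃ φ : ℂ → An Z, IsDisc φ ∧ φ 0 = p ∧ MapsTo φ (closedBall 0 1) O := by
  obtain ⟨x, rfl⟩ := h.surjective p
  obtain ⟨W, s, hx, ⟨hW, hs⟩, hc, hi⟩ := hΦ x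
  set e := chartAt (Cm 1) x with he
  have hxe : x ∈ e.source := mem_chart_source _ x
  have hU : e.target ∩ e.symm ⁻¹' (W ∩ h ⁻¹' O) ∈ 𝓝 (e x) := by
    refine inter_mem (e.open_target.mem_nhds (e.map_source hxe))
      ((e.continuousAt_symm (e.map_source hxe)).preimage_mem_nhds ?_)
    rw [e.left_inv hxe]
    exact inter_mem (hW.mem_nhds hx) (h.continuous.continuousAt.preimage_mem_nhds hO)
  obtain ⟨ε, hε, hb⟩ := nhds_basis_closedBall.mem_iff.1 hU
  have hε' : (ε : ℂ) ≠ 0 := by exact_mod_cast hε.ne'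
  let w : Cm 1 := fun _ => (ε : ℂ)
  let A : ℂ → Cm 1 := fun u => e x + u • w
  have hA : ∀ u ∈ closedBall (0 : ℂ) 1, A u ∈ e.target ∩ e.symm ⁻¹' (W ∩ h ⁻¹' O) := by
    intro u hu
    refine hb ?_
    rw [mem_closedBall_zero_iff] at hu
    have : ‖w‖ = ε := by simp [w, hε.le]
    rw [mem_closedBall_iff_norm, add_sub_cancel_left, norm_smul, this]
    exact mul_le_of_le_one_left hε.le hu
  have hAd : ∀ u, HasDerivAt A w u := fun u => by
    have := ((hasDerivAt_id u).smul_const w).const_add (e x)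
    rw [one_smul] at this
    exact this
  have hAa : ∀ u, AnalyticAt ℂ A u := fun u =>
    analyticAt_const.add (analyticAt_id.smul analyticAt_const)
  refine ⟨fun u => h (e.symm (A u)), ⟨fun u hu v hv huv => ?_, fun u hu => ?_⟩, ?_,
    fun u hu => (hA u hu).2.2⟩
  · have h1 := e.symm.injOn (hA u hu).1 (hA v hv).1 (h.injective huv)
    have h2 := congrFun (add_left_cancel h1) 0
    exact mul_right_cancel₀ hε' h2
  · obtain ⟨ht, hy, -⟩ := hA u hu
    have d1 : ContMDiffAt 𝓘(ℂ, Cm 1) 𝓘(ℂ, Cm 1) ω e.symm (A u) :=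
      contMDiffOn_chart_symm.contMDiffAt (e.open_target.mem_nhds ht)
    have d2 := hs.contMDiffAt (hW.mem_nhds hy)
    refine ⟨fun v => s (e.symm (A v)),
      (contMDiffAt_iff_contDiffAt.1 (d2.comp _ d1)).analyticAt.comp (hAa u), ?_, ?_⟩
    · have m1 := (d1.mdifferentiableAt (by simp)).hasMFDerivAt
      have m2 := (d2.mdifferentiableAt (by simp)).hasMFDerivAt
      have m3 := (hasMFDerivAt_iff_hasFDerivAt.1 (m2.comp _ m1)).comp_hasDerivAt u (hAd u)
      have m4 : deriv (fun v => s (e.symm (A v))) u = _ := m3.deriv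
      rw [LinearIndependent.pair_iff]
      intro a b hab
      rw [m4] at hab
      have m5 := hi _ hy (mfderiv 𝓘(ℂ, Cm 1) 𝓘(ℂ, Cm 1) e.symm (A u) (b • w)) (-a) (by
        rw [neg_smul]
        refine Eq.trans ?_ (eq_neg_of_add_eq_zero_right hab)
        exact ((mfderiv 𝓘(ℂ, Cm 1) 𝓘(ℂ, Fin (N + 1) → ℂ) s (e.symm (A u))).comp
          (mfderiv 𝓘(ℂ, Cm 1) 𝓘(ℂ, Cm 1) e.symm (A u))).map_smul b w)
      have m6 : b • w = 0 := (mdifferentiable_chart x).symm.mfderiv_injective ht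
        (m5.trans (map_zero _).symm)
      have m7 : b = 0 := (mul_eq_zero.1 (congrFun m6 0)).resolve_right hε'
      rw [m7, zero_smul, add_zero] at hab
      exact ⟨(smul_eq_zero.1 hab).resolve_right (hc _ hy).1, m7⟩
    · have : ∀ᶠ v in 𝓝 u, e.symm (A v) ∈ W :=
        (d1.continuousAt.comp (hAd u).continuousAt).preimage_mem_nhds (hW.mem_nhds hy)
      filter_upwards [this] with v hv
      exact ⟨(hc _ hv).1, (hh _).trans (hc _ hv).2⟩
  · simp only [A, zero_smul, add_zero, e.left_inv hxe]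

theorem geo : GEO := by
  intro N Z hZ
  obtain ⟨X, _, _, _, _, _, Φ, hΦ⟩ := P299G85.exi 1 N Z hZ
  have hc := P299G50.conn 1 N Z X Φ hZ.irr hΦ
  obtain ⟨inj, imm, rng⟩ := hΦ
  have t2 : T2Space (An Z) := an_emb.t2Space
  let Ψ : X → An Z := fun x => ⟨Φ x, rng ▸ mem_range_self x⟩
  have hΨ : Continuous Ψ := an_emb.continuous_iff.2 (imm_cont imm)
  have bij : Function.Bijective Ψ := by
    refine ⟨fun a b hab => inj (congrArg Subtype.val hab), fun p => ?_⟩
    obtain ⟨x, hx⟩ : p.1 ∈ range Φ := rng ▸ p.2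
    exact ⟨x, Subtype.ext hx⟩
  let h : X ≃ₜ An Z := Continuous.homeoOfEquivCompactToT2 (f := Equiv.ofBijective Ψ bij) hΨ
  obtain ⟨c, m⟩ := transport h (ContinuousLinearEquiv.funUnique (Fin 1) ℂ ℂ)
  exact ⟨t2, h.compactSpace, bij.2.connectedSpace hΨ, c, m, disc imm h fun _ => rfl⟩

end Vale.Agent.P002A

end
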